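import Vale.Agent.P144D.PS.Cmp
import Vale.Agent.P144D.U.Sec
import Vale.Agent.P144D.U.Gib
import Vale.Agent.P144D.Dom.A
import Vale.Agent.P144Z.U4.Main

/-!
The state of the torus is the limit of the Gibbs measures of boxes with free boundary condition.
-/

namespace Vale.Agent.P144Z

open Finset Matrix Filter Topology MeasureTheory P144

/-- The limit of the periodic measures is a limit of finite-volume measures with free boundary
condition. -/
def BoxOK (q : Par) : Prop :=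
  ∀ J lam β : ℝ, U4.Rel J lam β q → ∀ μ, IsTorusState J lam q.V β μ → IsPlaneState J lam q.V β μ

namespace PS

theorem bnd_flat {M : ℕ} [NeZero M] {A : Gauge M} (hA : ∀ f, flux A f = 1) {L : ℕ} (hL : 1 ≤ L)
    (J m : ℕ) {c ε : ℝ} (hc : 1 ≤ c) (hε : 0 < ε) : Bnd A L J m c ε := by
  have hL' : (1 : ℝ) ≤ (L : ℝ) ^ 2 := one_le_pow₀ (by exact_mod_cast hL)
  intro j _
  have h1 := min_le_left (1 / 8 : ℝ) (ε / (L : ℝ) ^ 2)
  have h2 := min_le_right (1 / 8 : ℝ) (ε / (L : ℝ) ^ 2)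
  have h0 : 0 < min (1 / 8 : ℝ) (ε / (L : ℝ) ^ 2) := by positivity
  generalize min (1 / 8 : ℝ) (ε / (L : ℝ) ^ 2) = κ at h0 h1 h2
  rw [le_div_iff₀ (by positivity)] at h2
  refine ⟨c, κ, 0, 0, by linarith, le_rfl, h0, by linarith, ?_,
    fun z ⟨f, _, h⟩ => absurd (by rw [hA, abs_one]) h, fun z => ⟨∅, ∅, le_rfl, le_rfl,
      fun _ h => absurd h (notMem_empty _), fun x _ ⟨f, _, h⟩ => absurd (by rw [hA, abs_one]) h⟩⟩
  simp only [bdl, Nat.cast_zero, zero_mul, add_zero, mul_zero, zero_div]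
  have h3 : κ * (κ * (L : ℝ) ^ 2) ≤ 1 * ε := mul_le_mul (by linarith) h2 (by positivity) one_pos.le
  have h4 : κ * 1 ≤ κ * (L : ℝ) ^ 2 := mul_le_mul_of_nonneg_left hL' h0.le
  split_ifs <;> nlinarith

theorem pw_one {M : ℕ} [NeZero M] {Λ : Finset Site} {r : ℕ} (h : ∀ v, zd v 0 ≤ r + 2 → v ∈ Λ) :
    Flat (regOf M Λ true).pw 0 r := fun f hf => by
  have k : ∀ x : Tor M, tdist x 0 ≤ r + 2 → x ∈ (regOf M Λ true).In := fun x hx =>
    mem_image.2 ⟨lft x, h _ (by simpa [zd, tdist] using hx), prj_lft x⟩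
  rw [Both.flux_const le_rfl (c := 1) fun e he => ?_, one_pow]
  have h1 := tdist_triangle e.1 f 0
  have h2 : tdist (oth e) e.1 ≤ 1 := by
    have := tdist_uv (oth e) (if e.2 = 0 then 1 else 0)
    rwa [tdist_comm, oth, sub_add_cancel] at this
  have h3 := tdist_triangle (oth e) e.1 0
  exact (if_pos rfl).trans (if_pos ⟨k _ (by omega), k _ (by omega)⟩)

end PS

set_option maxHeartbeats 800000 in
open PS in
theorem boxStmt (hB : BdStmt) (hG : GapStmt) : ∃ L₀ : ℕ, ∀ L ≥ L₀, ∃ η₀ > 0, ∀ R : ℕ, ∃ δ₀ > 0,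
    ∀ q : Par, q.R = R → Crit L q η₀ δ₀ → BoxOK q := by
  classical
  obtain ⟨ε₀, hε₀, h⟩ := obsStmt
  obtain ⟨c, hc, n₁, hB⟩ := hB 1 one_pos
  obtain ⟨L₀, h⟩ := h c 8 hc
  set η₁ := min 1 (ε₀ / (162 * ((n₁ + 1) * c))) with hη₁
  have hη0 : 0 < η₁ := by positivity
  have hη2 : 81 * (n₁ * c * η₁) ≤ ε₀ / 2 := by
    have h1 := min_le_right 1 (ε₀ / (162 * ((n₁ + 1) * c)))
    rw [← hη₁, le_div_iff₀ (by positivity)] at h1
    have h2 : 0 ≤ c * η₁ := by positivity
    nlinarith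
  obtain ⟨n₂, LB, hB⟩ := hB η₁ hη0
  refine ⟨max (max L₀ (LB + 2)) (max ⌈8000 * c ^ 2⌉₊ ⌈(1 + 81 * n₂) * c ^ 2 / (ε₀ / 2)⌉₊),
    fun L hL => ?_⟩
  have hL1 : 8000 * c ^ 2 ≤ L := Nat.ceil_le.1 (le_of_max_le_left (le_of_max_le_right hL))
  have hL2 : (1 + 81 * n₂) * c ^ 2 ≤ ε₀ / 2 * L := by
    have h1 := Nat.ceil_le.1 (le_of_max_le_right (le_of_max_le_right hL))
    rwa [div_le_iff₀ (by positivity), mul_comm (L : ℝ)] at h1
  have hL3 : LB + 2 ≤ L := le_of_max_le_right (le_of_max_le_left hL)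
  obtain ⟨κ, hκ, hB⟩ := hB L (by omega)
  obtain ⟨η₀, hη₀, h⟩ := h L (le_of_max_le_left (le_of_max_le_left hL))
  obtain ⟨C₂, hC₂, hΔ⟩ := cor_reg
  refine ⟨η₀ / C₂, by positivity, fun R => ?_⟩
  obtain ⟨δ₀, hδ₀, h⟩ := h R
  obtain ⟨C₃, hC₃, hΔ⟩ := hΔ R
  refine ⟨δ₀ / C₃, by positivity, fun q hR hq J lam β hr μ hμ => ?_⟩
  replace h := h q hR (hq.mono (div_le_self hη₀.le hC₂) (div_le_self hδ₀.le hC₃))
  obtain ⟨T₀, hT₀, hS⟩ := shape_of_tame (tame_rect (-1) 1 (-1) 1)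
  set D := {z : ℂ | -1 < z.re ∧ z.re < 1 ∧ -1 < z.im ∧ z.im < 1} with hD
  obtain ⟨ρ, hρ, hS⟩ := hS (min κ (1 / 8)) (by positivity)
  set s := min ρ 1 with hs
  have hs0 : 0 < s := by positivity
  set Λ₀ := ⌈T₀ / s⌉₊ + 1 with hΛ₀
  obtain ⟨Γ, hΓ, hG⟩ := hG Λ₀
  obtain ⟨C₀, hC₀, hg⟩ := gap_flat
  have h8 := FM.eight_le_sc (L := L) (by omega)
  have hk : ∀ k, k < sc L k := fun k => by
    have h1 : k < 2 ^ k := Nat.lt_two_pow_self
    have h2 : 2 ^ k ≤ L ^ k := Nat.pow_le_pow_left (by omega) k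
    unfold sc
    omega
  set a : ℕ → ℝ := fun k => s / (32 * sc L k : ℕ) with ha
  have ha0 : ∀ k, 0 < a k := fun k => div_pos hs0 (by have := h8 k; positivity)
  have har : ∀ k, a k * (32 * sc L k : ℕ) = s := fun k =>
    div_mul_cancel₀ _ (by have := h8 k; positivity)
  have hin : ∀ k v, zd v 0 < 32 * sc L k → v ∈ disc D (a k) := fun k v hv => by
    have h1 : a k * zd v 0 < 1 := (mul_lt_mul_of_pos_left (by exact_mod_cast hv) (ha0 k)).trans_le
      ((har k).le.trans (min_le_right _ _))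
    rw [U4.zd_cast, mul_max_of_nonneg _ _ (ha0 k).le, max_lt_iff] at h1
    simp only [Prod.fst_zero, Prod.snd_zero, Int.cast_zero, sub_zero] at h1
    rw [← abs_of_pos (ha0 k), ← abs_mul, ← abs_mul, abs_lt, abs_lt] at h1
    exact ((hS _ (ha0 k)).1 v).2 ⟨h1.1.1, h1.1.2, h1.2.1, h1.2.2⟩
  have hout : ∀ k, ∀ v ∈ disc D (a k), zd v 0 ≤ Λ₀ * (32 * sc L k) := fun k v hv => by
    have h1 := (hS _ (ha0 k)).2.1 v hv
    have h2 : T₀ ≤ Λ₀ * s := by
      rw [← div_le_iff₀ hs0, hΛ₀]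
      push_cast
      linarith [Nat.le_ceil (T₀ / s)]
    rw [← har k, mul_left_comm] at h2
    exact_mod_cast le_of_mul_le_mul_left (h1.trans h2) (ha0 k)
  refine ⟨hμ.1, hμ.2.1, fun k => disc D (a k), fun _ => none, fun x => ?_, fun A => ?_⟩
  · filter_upwards [eventually_ge_atTop (zd x 0)] with k hk'
    exact hin k x (by have := hk k; omega)
  set P := A.sup fun v => zd v 0 with hP
  have hA : ∀ v ∈ A, zd v 0 ≤ P := fun v hv => le_sup (f := fun v => zd v 0) hv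
  have hF : ∀ k ≥ P, ∀ σ σ' : Config, (∀ x ∈ disc D (a k), σ x = σ' x) →
      ∏ x ∈ A, sp (σ x) = ∏ x ∈ A, sp (σ' x) := fun k hk' σ σ' e =>
    prod_congr rfl fun x hx => by rw [e x (hin k x (by have := hA x hx; have := hk k; omega))]
  rcases Nat.even_or_odd A.card with hE | hO
  swap
  · have ho : ∀ σ : Config, ∏ x ∈ A, sp (!σ x) = -∏ x ∈ A, sp (σ x) := fun σ => by
      simp only [U1.sp_not]
      rw [prod_neg, hO.neg_one_pow, neg_one_mul]
    rw [tendsto_nhds_unique (hμ.2.2.2 A) (tendsto_const_nhds.congr fun M =>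
      (U1.gibbsT_odd hr.pot J lam β M ho).symm)]
    refine tendsto_const_nhds.congr' ?_
    filter_upwards [eventually_ge_atTop P] with k hk'
    exact (UG.gibbs_free_odd hr.pot _ (hF k hk') ho).symm
  have hO := U4.Loc.prod A fun x => U4.Loc.pHV 0 x
  obtain ⟨o, o1, o2⟩ := hr.lim hO (F := fun σ => ∏ x ∈ A, sp (σ x))
    fun M s => U4.prod_spin A hE (fun x => x) M s
  rw [tendsto_nhds_unique (hμ.2.2.2 A) o1, Metric.tendsto_nhds]
  intro ε hε
  obtain ⟨⟨E, hE'⟩, hb⟩ := hO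
  obtain ⟨J₀, h⟩ := h (insert (0, 0) (E.image Prod.fst ∪ E.image fun e => e.1 + uz e.2)) _
    (mem_insert_self _ _) (fun n n' hn => hE' n n' fun e he => hn e
      (mem_insert_of_mem (mem_union_left _ (mem_image_of_mem _ he)))
      (mem_insert_of_mem (mem_union_right _ (mem_image_of_mem (fun e => e.1 + uz e.2) he)))) hb
    (1024 * Λ₀ + 1 + 16 * L) (Γ * (Λ₀ * 32) + C₀ * (16 * L)) (by
      have : (1 : ℝ) ≤ L := by exact_mod_cast (by omega : 1 ≤ L)
      have : 0 ≤ Γ * (Λ₀ * 32) := by positivity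
      nlinarith) (ε / 2) (half_pos hε)
  filter_upwards [eventually_ge_atTop (J₀ + P + q.R + 1)] with k hk'
  set T := Λ₀ * (32 * sc L k) with hT
  have e1 : 32 * sc L k ≤ T := Nat.le_mul_of_pos_left _ (by omega)
  have e2 := hk k
  have e3 := h8 k
  set Rg := regOf (32 * T + 1) (disc D (a k)) true with hRg
  have sh : Shape Rg.In 1 (min κ (1 / 8)) (32 * sc L k) :=
    ((hS _ (ha0 k)).2.2 _ ((har k).le.trans (min_le_left _ _))).shape (hout k) (by omega)
  obtain ⟨d1, d2, d3⟩ := hΔ _ Rg q _ _ hR hq.ok hq.x hq.small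
  rw [mul_div_cancel₀ _ (by positivity), mul_div_cancel₀ _ (by positivity)] at d3
  have b1 := hB _ Rg 1 _ k (sh.mono (min_le_left _ _) le_rfl) (str_one _ _) (by omega) (by omega)
    (by omega)
  rw [mul_one] at b1
  have adm : AdmO L 8 (1024 * Λ₀ + 1 + 16 * L) q.R c ε₀ (Γ * (Λ₀ * 32) + C₀ * (16 * L)) η₀ δ₀
      Rg.pw (Rg.cor q) k :=
    { w := Rg.isP.isW
      lo := by omega
      hi := by rw [hT]; nlinarith [Nat.zero_le (L * sc L k)]
      nf := fun f hf => by linarith [Both.flux_nonneg Rg.isP f]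
      flat := pw_one fun v hv => hin k v (by omega)
      bnd := Both.bnd b1 hc hη0 (min_le_left _ _) hη2 hL1 hL2
      gap := fun φ => by
        have g1 := hG _ Rg 1 1 T _ (sh.mono (min_le_right _ _) le_rfl) (str_one _ _)
          (fun f hf => by
            obtain ⟨v, hv, rfl⟩ := mem_image.1 hf
            exact (UL.tdist_le v).trans (hout k v hv)) (fun _ _ => rfl) (by omega) e1 le_rfl
          (by omega) φ 0 (fun _ f hf => by rw [FM.flux_one] at hf; norm_num at hf)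
          fun f hf => absurd rfl hf
        simp only [mul_one, Pi.zero_apply, zero_smul, sum_const_zero, sub_zero,
          RN.l2sq_univ] at g1
        refine g1.trans (mul_le_mul_of_nonneg_right (pow_le_pow_left₀ (by positivity) ?_ 2)
          (C.dot_nonneg _))
        rw [hT]
        push_cast
        have : 0 ≤ C₀ * (16 * L) * sc L k := by positivity
        linarith
      ok := d1
      off := d2
      sm := d3 }
  have g1 := (gibbs_sec q hr.pot hr.range hr.mu hr.x (M := 32 * T + 1) (disc D (a k)) (hout k)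
    (by omega) true (H := 0) 0 Fin.elim0 (fun _ => rfl) (by simp) _
    (obs _ fun c => ∏ x ∈ A, pHV c 0 x) (hF k (by omega))
    (fun s _ => U4.prod_spin A hE (fun x => x) _ s) fun _ n n' e =>
      prod_congr rfl fun x hx => UL.box_pHV (by simp [zd]) (by have := hA x hx; omega) n n' e).1
  simp only [if_true, secE, univ_unique, sum_singleton, holeG, eq_empty_of_isEmpty, prod_empty,
    mul_one] at g1
  rw [g1, Real.dist_eq]
  refine lt_of_le_of_lt (le_of_tendsto (o2.const_sub _).abs ?_) (half_lt_self hε)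
  filter_upwards [eventually_ge_atTop 128,
    (SS.nst_tendsto (L := L) (by omega)).eventually_ge_atTop J₀] with M m1 m2
  have m3 := SS.le_nst (L := L) (by omega) (M + 1)
  change _ ≤ 16 * sc L _ at m3
  rw [FM.sc_succ] at m3
  refine h _ _ _ k (M + 1) (sec (M + 1) AA) (SS.nst L (M + 1)) (by omega) m2 adm
    { w := (sec_sign _).isW
      lo := SS.nst_le (by omega)
      hi := m3.trans (by nlinarith [Nat.zero_le (Λ₀ * sc L (SS.nst L (M + 1)))])
      nf := fun f hf => by rw [sec_flat] at hf; norm_num at hf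
      flat := fun f _ => sec_flat _ f
      bnd := bnd_flat (sec_flat _) (by omega) _ _ hc hε₀
      gap := fun φ => ?_
      ok := Cor.ok_zero _
      off := fun _ _ _ => rfl
      sm := ?_ } (sec_sign _)
  · have g2 := (hg _ _ (sec_sign AA) (sec_flat AA) (sec_anti (M := M + 1) (by decide)) φ).1
    simp only [RN.l2sq_univ] at g2
    refine g2.trans (mul_le_mul_of_nonneg_right (pow_le_pow_left₀ (by positivity) ?_ 2)
      (C.dot_nonneg _))
    have m4 : ((M + 1 : ℕ) : ℝ) ≤ 16 * (L * sc L (SS.nst L (M + 1))) := by exact_mod_cast m3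
    have : 0 ≤ Γ * (Λ₀ * 32) * sc L (SS.nst L (M + 1)) := by positivity
    nlinarith
  · exact ⟨0, 0, (add_zero _).symm, ⟨0, fun _ _ => by simp, fun _ h => absurd rfl h,
      fun _ => by simpa using hη₀.le⟩, ⟨0, fun _ _ => by simp, fun _ h => absurd rfl h,
      fun _ => by simpa using hδ₀.le⟩⟩

end Vale.Agent.P144Z
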