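import Vale.Agent.P144D.PS.Flow
import Vale.Agent.P144D.MN.Last
import Vale.Agent.P144D.FD.Both
import Vale.Agent.P144Z.S.Main

/-!
The expectation of a local observable far from the boundary.
-/

namespace Vale.Agent.P144Z

open Finset Matrix Geo Mn MN Filter Topology

/-- Weights and corrections whose boundary is far from the origin. -/
structure AdmO (L m Λ R : ℕ) (c ε Γ η δ : ℝ) {M : ℕ} [NeZero M] (A : Gauge M) (u : Cor M)
    (J : ℕ) : Prop where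
  w : IsW A
  lo : 16 * sc L J ≤ M
  hi : M ≤ Λ * sc L J
  nf : ∀ f, flux A f ≠ -1
  flat : Flat A 0 (8 * sc L J)
  bnd : Bnd A L J m c ε
  gap : ∀ φ, φ ⬝ᵥ φ ≤ (Γ * sc L J) ^ 2 * ((Dm A *ᵥ φ) ⬝ᵥ (Dm A *ᵥ φ))
  ok : u.Ok
  off : u.Off A
  sm : u.Sm R η δ

namespace PS

/-- The torus with the weights `A` and one observable at the origin. -/
abbrev gO {M : ℕ} [NeZero M] (A : Gauge M) (Y : Finset (ℤ × ℤ))
    (O : ((ℤ × ℤ) × Fin 2 → Bool) → ℝ) (J : ℕ) : Geo :=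
  { M := M, A := A, K := Unit, src := fun _ => ⟨0, Y, O, false, 0⟩, J := J }

variable {M : ℕ} [NeZero M] {A : Gauge M} {Y : Finset (ℤ × ℤ)}
  {O : ((ℤ × ℤ) × Fin 2 → Bool) → ℝ} {J L : ℕ} {q : Par} {u : Cor M}

theorem obs_eq (hZ : q.Z ≠ 0) (hc : (gO A Y O J).ConvC L q u J)
    (h0 : ag _ (TT (gO A Y O J) L q u) ≠ 0) :
    ZwC q u A (obs M O) / ZwC q u A 1 = cf (gO A Y O J) () (CC (gO A Y O J) L q u) +
      cf (gO A Y O J) () (TT (gO A Y O J) L q u) / ag _ (TT (gO A Y O J) L q u) := by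
  have h1 : ZwC q u A 1 = _ := Z_eq (g := gO A Y O J) hZ hc
  have h2 := congrArg (cf (gO A Y O J) ()) (MN.gen (g := gO A Y O J) hZ hc)
  have h3 := src_one (CC_mem (g := gO A Y O J) (L := L) (q := q) (u := u)) noF_CC ()
    fun _ _ => rfl
  have h3' := src_one (TT_mem (g := gO A Y O J) (L := L) (q := q) (u := u)) (LM.noF_TL _ _) ()
    fun _ _ => rfl
  set a := ag _ (CC (gO A Y O J) L q u)
  set c := cf (gO A Y O J) () (CC (gO A Y O J) L q u)
  set a' := ag _ (TT (gO A Y O J) L q u)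
  set c' := cf (gO A Y O J) () (TT (gO A Y O J) L q u)
  rw [h3, h3', exp_add', exp_smul_one, exp_bv] at h2
  simp only [univ_unique, sum_singleton, exp_bv, map_sum, map_smul, map_add, cf_one, cf_bv,
    smul_eq_mul, smul_mul_assoc, mul_smul_comm, one_mul, mul_one, zero_add, add_mul, mul_add, bv_sq,
    map_zero, mul_zero, add_zero] at h2
  have h4 : ZwC q u A (obs M O) = (q.Z ^ (2 * M ^ 2))⁻¹ * (Real.exp a * (c * a' + c')) := by
    refine Eq.trans ?_ (h2.trans (by ring))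
    rw [ZwC]
    refine sum_congr rfl fun n _ => congrArg _ (congrArg O (funext fun e => ?_))
    exact congrArg (fun x => n (x, e.2)) (zero_add _).symm
  rw [h4, h1]
  have := pow_ne_zero (2 * M ^ 2) hZ
  have := (Real.exp_pos a).ne'
  field_simp

variable {m Λ R : ℕ} {c ε Γ η δ β b h : ℝ}

theorem preO (D : AdmO L m Λ R c ε Γ η δ A u J) (hs : (⟨0, Y, O, false, 0⟩ : Src M).Ok) :
    (gO A Y O J).PreO L m Λ c ε :=
  ⟨⟨D.w, fun _ => hs⟩, inferInstanceAs (Subsingleton Unit), fun _ => rfl, D.lo, D.hi,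
    ⟨fun f hf => absurd hf (D.nf f), fun _ => D.flat, fun _ _ h => absurd rfl h⟩, D.bnd⟩

/-- The last integration does not contribute. -/
theorem last_le (hg : (gO A Y O J).OkW) (hu : u.Ok) (hL : 1 ≤ L) (hh : 0 < h) (hβ : 0 < β)
    (F : (gO A Y O J).FlowO L q u β b h) (h0 : Zw par0 A 1 ≠ 0)
    (H : (gO A Y O J).LastB (sc L J) h |Zw par0 A 1|) {e : ℝ}
    (he : Real.exp (b / 2 ^ J) - 1 ≤ e) (he1 : e ≤ 1 / 2) :
    ag _ (TT (gO A Y O J) L q u) ≠ 0 ∧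
      β * |cf (gO A Y O J) () (TT (gO A Y O J) L q u) / ag _ (TT (gO A Y O J) L q u)| ≤ 2 * e := by
  have hℓ : 1 ≤ sc L J := by have := FM.eight_le_sc hL J; omega
  have hy := abs_pos.2 h0
  set X := ∑ X, ((gO A Y O J).flowC L q u J).H X with hX
  have hXm : X ∈ (gO A Y O J).sub univ := W.FD.sum_H_mem (W.Geo.wf_flowC hg hu L q J)
  have e1 : TT (gO A Y O J) L q u - Zw par0 A 1 • 1 =
      (gO A Y O J).TL (sc L J) (NormedSpace.exp X - 1) := by
    rw [sub_eq_add_neg (NormedSpace.exp X), LM.TL_add, ← neg_one_smul ℝ (1 : (gO A Y O J).E),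
      LM.TL_smul, LM.TL_one, neg_one_smul, ← sub_eq_add_neg]
    rfl
  have h1 : (gO A Y O J).ps β univ (TT (gO A Y O J) L q u - Zw par0 A 1 • 1) ≤
      |Zw par0 A 1| * e := by
    rw [e1]
    exact (H _ hβ _ (sub_mem (exp_mem_sub _ hXm) (one_mem _))).trans
      (mul_le_mul_of_nonneg_left ((pn_exp hℓ hh hβ hXm F.last).1.trans he) hy.le)
  have c1 := (MN.ps_cf (g := gO A Y O J) hg.sign hβ
    (sub_mem TT_mem (Subalgebra.smul_mem _ (one_mem _) _)) ()).trans h1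
  have c3 := (RN.abs_aug_le_pn le_rfl one_pos hβ _).trans h1
  rw [← ag_apply, map_sub, map_smul, ag_one, smul_eq_mul, mul_one] at c3
  rw [map_sub, map_smul, cf_one, smul_zero, sub_zero] at c1
  obtain ⟨r1, r2, -⟩ := ratio_le h0 he1 c3
  refine ⟨r1, ?_⟩
  have hx := abs_pos.2 r1
  rw [abs_div, div_le_iff₀ hx] at r2
  rw [abs_div, ← mul_div_assoc, div_le_iff₀ hx]
  have he0 : 0 ≤ e := nonneg_of_mul_nonneg_right ((abs_nonneg _).trans c3) hy
  nlinarith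

theorem cs_le (hg : (gO A Y O J).OkW) (hu : u.Ok) (hβ : 0 < β)
    (F : (gO A Y O J).FlowO L q u β b h) {j : ℕ} (hj : j ≤ J) : Anch (sc L j) L
      (fun U => |cf (gO A Y O J) () ((gO A Y O J).csC L q u j U)|) (2 / 2 ^ j / β) := fun z => by
  have h3 := div_le_div_of_nonneg_right (F.cs j hj z) hβ.le
  rw [sum_div] at h3
  refine le_trans (sum_le_sum fun U _ => ?_) h3
  exact (mul_le_mul_of_nonneg_right ((le_div_iff₀' hβ).2
    (MN.ps_cf hg.sign hβ (W.Geo.csC_mem hg hu L q j U).1 ())) (Real.exp_pos _).le).trans_eq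
    (mul_div_right_comm _ _ _).symm

theorem cs_zero (hg : (gO A Y O J).OkW) (hu : u.Ok) (j : ℕ) (U : Finset (Tor M)) (hU : 0 ∉ U) :
    cf (gO A Y O J) () ((gO A Y O J).csC L q u j U) = 0 :=
  cf_not_mem (W.Geo.csC_mem hg hu L q j U).1 hU

theorem tail_le (hg : (gO A Y O J).OkW) (hu : u.Ok) (hβ : 0 < β)
    (F : (gO A Y O J).FlowO L q u β b h) {N : ℕ} (hN : N ≤ J) :
    |cf (gO A Y O J) () (CC (gO A Y O J) L q u) -
      ∑ j ∈ range N, ∑ U, cf (gO A Y O J) () ((gO A Y O J).csC L q u j U)| ≤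
      4 / β * (1 / 2) ^ N := by
  simp only [CC, map_sum]
  rw [← sum_range_add_sum_Ico _ (hN.trans (Nat.le_succ J)), add_sub_cancel_left]
  have h5 := geom_sum_Ico_le_of_lt_one (x := (1 / 2 : ℝ)) (m := N) (n := J + 1)
    (by norm_num) (by norm_num)
  have h7 := mul_le_mul_of_nonneg_left h5 (by positivity : 0 ≤ 2 / β)
  rw [mul_sum] at h7
  refine (abs_sum_le_sum_abs _ _).trans ((sum_le_sum fun j hj => ?_).trans
    (h7.trans (le_of_eq (by ring))))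
  refine (SS.sum_le_of_zero (cs_le hg hu hβ F (Nat.le_of_lt_succ (mem_Ico.1 hj).2))
    (cs_zero hg hu j)).trans (le_of_eq ?_)
  rw [one_div, inv_pow]
  ring

end PS

/-- The expectation of a local observable does not depend on the far boundary. -/
def ObsOK (L m : ℕ) (c ε₀ η δ : ℝ) (q : Par) : Prop :=
  ∀ (Y : Finset (ℤ × ℤ)) (O : ((ℤ × ℤ) × Fin 2 → Bool) → ℝ), (0, 0) ∈ Y →
    (∀ n n', (∀ e : (ℤ × ℤ) × Fin 2, e.1 ∈ Y → e.1 + uz e.2 ∈ Y → n e = n' e) → O n = O n') →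
    (∀ n, |O n| ≤ 1) → ∀ (Λ : ℕ) (Γ : ℝ), 1 ≤ Γ → ∀ ε > 0, ∃ J₀ : ℕ,
      ∀ (M : ℕ) [NeZero M] (A : Gauge M) (u : Cor M) (J : ℕ) (M' : ℕ) [NeZero M'] (A' : Gauge M')
        (J' : ℕ), J₀ ≤ J → J₀ ≤ J' → AdmO L m Λ q.R c ε₀ Γ η δ A u J →
        AdmO L m Λ q.R c ε₀ Γ η δ A' 0 J' → IsSign A' →
          |ZwC q u A (obs M O) / ZwC q u A 1 - Zw q A' (obs M' O) / Zw q A' 1| ≤ ε

open PS in
theorem obsStmt : ∃ ε₀ > 0, ∀ (c : ℝ) (m : ℕ), 1 ≤ c → ∃ L₀ : ℕ, ∀ L ≥ L₀, ∃ η₀ > 0, ∀ R : ℕ,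
    ∃ δ₀ > 0, ∀ q : Par, q.R = R → Crit L q η₀ δ₀ → ObsOK L m c ε₀ η₀ δ₀ q := by
  obtain ⟨ε₀, hε₀, H⟩ := W.FD.flow_off
  obtain ⟨Cl, hCl, hl⟩ := LM.lastB_gap
  refine ⟨ε₀, hε₀, fun c m hc => ?_⟩
  obtain ⟨L₀, H⟩ := H c m hc
  refine ⟨max L₀ 8, fun L hL => ?_⟩
  have hL8 : 8 ≤ L := le_of_max_le_right hL
  have hL1 : 1 ≤ L := by omega
  obtain ⟨η₀, hη₀, H⟩ := H L (le_of_max_le_left hL)
  refine ⟨η₀, hη₀, fun R => ?_⟩
  obtain ⟨δ₀, hδ₀, H⟩ := H R
  refine ⟨δ₀, hδ₀, fun q hR hq Y O h0 hdep hbd Λ Γ hΓ ε hε => ?_⟩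
  subst hR
  obtain ⟨β, hβ, H⟩ := H q rfl hq Y
  have hh : 0 < Cl * Γ := by positivity
  obtain ⟨b, hb, J₁, H⟩ := H Λ (Cl * Γ) hh
  have hs : ∀ M : ℕ, (⟨0, Y, O, false, 0⟩ : Src M).Ok := fun M =>
    ⟨h0, hdep, hbd, fun e => by cases e⟩
  have hZ : q.Z ≠ 0 := (lt_of_lt_of_le (by norm_num) hq.ok.Z_lo).ne'
  have h8 := FM.eight_le_sc hL1
  have t0 := tendsto_pow_atTop_nhds_zero_of_lt_one (r := (1 / 2 : ℝ)) (by norm_num) (by norm_num)
  have t1 := t0.const_mul (4 / β)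
  rw [mul_zero] at t1
  obtain ⟨N, hN⟩ := (t1.eventually (ge_mem_nhds (by linarith : 0 < ε / 8))).exists
  have t2 : Tendsto (fun T : ℕ => ∑ j ∈ range N,
      2 * (2 / 2 ^ j / β) * Real.exp (-((L : ℝ) * T / sc L j))) atTop (𝓝 0) := by
    have t3 := tendsto_finsetSum (range N) fun j _ =>
      (Real.tendsto_exp_neg_atTop_nhds_zero.comp ((tendsto_natCast_atTop_atTop.const_mul_atTop
        (r := (L : ℝ)) (by exact_mod_cast hL1)).atTop_div_const (r := (sc L j : ℝ))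
        (by exact_mod_cast (by have := h8 j; omega)))).const_mul (2 * (2 / 2 ^ j / β))
    simp only [mul_zero, sum_const_zero] at t3
    exact t3
  obtain ⟨T, hT⟩ := (t2.eventually (ge_mem_nhds (by linarith : 0 < ε / 4))).exists
  have t4 : Tendsto (fun J : ℕ => Real.exp (b / 2 ^ J) - 1) atTop (𝓝 0) := by
    have t5 := ((Real.continuous_exp.tendsto _).comp (t0.const_mul b)).sub_const 1
    simp only [mul_zero, Real.exp_zero, sub_self] at t5
    exact t5.congr fun J => by simp [div_eq_mul_inv]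
  obtain ⟨J₂, hJ₂⟩ := eventually_atTop.1
    (t4.eventually (ge_mem_nhds (by positivity : 0 < min (1 / 2) (β * ε / 8))))
  set P := T + q.R + Y.sup fun v => zd v 0 with hP
  refine ⟨max (max J₁ J₂) (max N P), fun M _ A u J M' _ A' J' hJ hJ' D D' hA' => ?_⟩
  have big : ∀ J, max (max J₁ J₂) (max N P) ≤ J → 8 * P < sc L J := fun J hJ => by
    have h1 : P < 2 ^ P := Nat.lt_two_pow_self
    have h2 : 2 ^ P ≤ L ^ J := (Nat.pow_le_pow_left (by omega) P).trans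
      (Nat.pow_le_pow_right hL1 (by omega))
    unfold sc
    omega
  have key : ∀ (M : ℕ) [NeZero M] (A : Gauge M) (u : Cor M) (J : ℕ),
      max (max J₁ J₂) (max N P) ≤ J → AdmO L m Λ q.R c ε₀ Γ η₀ δ₀ A u J →
      (gO A Y O J).FlowO L q u β b (Cl * Γ) ∧ |ZwC q u A (obs M O) / ZwC q u A 1 -
        ∑ j ∈ range N, ∑ U, cf (gO A Y O J) () ((gO A Y O J).csC L q u j U)| ≤ 3 * ε / 8 := by
    intro M _ A u J hJ D
    have hp := preO D (hs M)
    have F := H (gO A Y O J) (by change J₁ ≤ J; omega) hp (fun _ => rfl) u D.ok D.off D.sm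
    have k := hJ₂ J (by omega)
    obtain ⟨k1, k2⟩ := last_le hp.ok D.ok hL1 hh hβ F (Both.ne_zero D.gap)
      (hl (gO A Y O J) D.w _ (h8 J) Γ hΓ D.gap _ le_rfl) k (min_le_left _ _)
    have k3 := (tail_le hp.ok D.ok hβ F (by omega : N ≤ J)).trans hN
    have k4 := min_le_right (1 / 2) (β * ε / 8)
    have k5 := le_of_mul_le_mul_left (k2.trans (by linarith : _ ≤ β * (ε / 4))) hβ
    refine ⟨F, ?_⟩
    rw [obs_eq hZ F.conv k1, add_sub_right_comm]
    exact (abs_add_le _ _).trans (by linarith)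
  obtain ⟨F, a1⟩ := key M A u J hJ D
  obtain ⟨F', a2⟩ := key M' A' 0 J' hJ' D'
  have hg := (preO D (hs M)).ok
  have hg' := (preO D' (hs M')).ok
  have b1 := big J hJ
  have b2 := big J' hJ'
  have b3 := D.lo
  have b4 := D'.lo
  have a3 : |∑ j ∈ range N, (∑ U, cf (gO A Y O J) () ((gO A Y O J).csC L q u j U) -
      ∑ U, cf (gO A' Y O J') () ((gO A' Y O J').csC L q 0 j U))| ≤ ε / 4 := by
    refine (abs_sum_le_sum_abs _ _).trans ((sum_le_sum fun j hj => ?_).trans hT)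
    have hj' := mem_range.1 hj
    have c1 : sc L j ≤ sc L J := FM.sc_mono hL1 (by omega)
    have c2 : sc L j ≤ sc L J' := FM.sc_mono hL1 (by omega)
    have c3 := h8 j
    refine SS.gamma_abs (M := M) (M' := M') (by omega) (by omega) (cs_le hg D.ok hβ F (by omega))
      (cs_le hg' D'.ok hβ F' (by omega)) (cs_zero hg D.ok j) (cs_zero hg' D'.ok j)
      fun U hU hT' => ?_
    refine W.Geo.ag_cs_srcC (g := gO A Y O J) (g' := gO A' Y O J') (c := (0 : Tor M))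
      (c' := (0 : Tor M')) (T := 2 * T + 3 * sc L j) hL8 hg hg' D.ok D'.ok hq.ok
      (by change _ ≤ M; omega) (by change _ ≤ M'; omega)
      (W.R6.matchC_flat D.w D.off hA' (by omega) (by change _ ≤ M; omega) (by change _ ≤ M'; omega)
        (fun f hf => D.flat f (hf.trans (by omega))) fun f _ => FM.flux_eq_one hA' (D'.nf _))
      j (k := ()) (k' := ()) ⟨(SS.shf_self (0 : Tor M) (0 : Tor M')).symm, rfl, rfl, rfl, rfl,
        fun i hi => by change i < J ↔ i < J'; omega⟩ (fun v hv => ?_) hU hU (by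
        have : tdist (0 : Tor M) 0 = 0 := tdist_self _
        change tdist (0 : Tor M) 0 + 2 * stein U + 3 * sc L j ≤ 2 * T + 3 * sc L j
        omega)
    have h6 : zd v 0 ≤ Y.sup fun v => zd v 0 := le_sup (f := fun v => zd v 0) hv
    change _ < min M M'
    omega
  rw [sum_sub_distrib] at a3
  rw [ZwC_zero, ZwC_zero] at a2
  rw [abs_le] at a1 a2 a3 ⊢
  constructor <;> linarith [a1.1, a1.2, a2.1, a2.2, a3.1, a3.2]

end Vale.Agent.P144Z
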