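import Vale.Agent.P144D.W.Init

/-!
The initial step of the corrected flow with one local observable.
-/

namespace Vale.Agent.P144Z.W.Geo

open Finset Matrix Vale.Agent.P144Z.Geo Vale.Agent.P144Z.R5

theorem init_off (τ h : ℝ) (hτ : 0 ≤ τ) (hh : 0 < h) : ∃ C₀ : ℝ, 1 ≤ C₀ ∧ ∀ R : ℕ,
    ∃ C : ℝ, 1 ≤ C ∧ ∀ (Y : Finset (ℤ × ℤ)) (ε : ℝ), 0 < ε → ∃ β > 0, ∀ q : Par, q.R = R → q.Ok →
    ∀ δ δ' γ, q.Small δ → C * (δ + δ') ≤ 1 → C₀ * γ ≤ 1 → ∀ g : Geo, g.OkW → Subsingleton g.K →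
    (∀ k, (g.src k).Y = Y) → ∀ c : Cor g.M, c.Ok → c.Sm R γ δ' →
      NormedSpace.exp (∑ U, g.W0C q c U) =
        g.E0 (q.x * q.Z) (NormedSpace.exp (∑ X, g.HinC q c X)) ∧
      Anch 8 τ (fun U => g.pn 8 h β U (g.W0C q c U)) (C₀ * γ + C * (δ + δ') + ε) := by
  have hk := kp0_nonneg (2 * h)
  have hσ : 0 ≤ τ + kp0 (2 * h) + 2 := by positivity
  set σ := τ + kp0 (2 * h) + 2 with hσ'
  have e1 := R5.one_le_eR hσ
  refine ⟨10000 * R5.eR σ 1, by linarith [e1 1], fun R => ⟨10000 * (cR σ R + R5.eR σ (2 * R + 2)),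
      by linarith [one_le_cR hσ R, e1 (2 * R + 2)], fun Y ε hε => ?_⟩⟩
  obtain ⟨r, hr⟩ : ∃ r : ℕ, ∀ v ∈ Y, max v.1.natAbs v.2.natAbs ≤ r :=
    ⟨_, fun v hv => le_sup (f := fun v : ℤ × ℤ => max v.1.natAbs v.2.natAbs) hv⟩
  set β := min (1 / 96) (ε / 1156) / Real.exp (σ * (1 + (r * (2 * r + 1) ^ 2 : ℕ))) with hβ0
  have hβ : 0 < β := by positivity
  refine ⟨β, hβ, ?_⟩
  rintro q rfl hq δ δ' γ hδ hC hC₀ g hg hK hY c hc ⟨c₁, c₂, rfl, hc₁, hc₂⟩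
  obtain ⟨𝓛, h1, h2⟩ := exists_locSys hg.sign (by norm_num : 1 ≤ 8) hh hβ
  have hE := R5.isExp_E0 hg h1 h2 hh hβ (abs_w hq)
  obtain ⟨γ0, d1⟩ := R5.pt_Hc (𝓛 := 𝓛) hσ hc₁
  obtain ⟨δ0, d2⟩ := R5.pt_Hc (𝓛 := 𝓛) hσ hc₂
  have d3 := mul_nonneg (zero_le_one.trans (one_le_cR hσ q.R)) δ0
  have d4 := mul_nonneg (zero_le_one.trans (e1 (2 * q.R + 2))) (small_nonneg hδ)
  have b4 := mul_nonneg (zero_le_one.trans (one_le_cR hσ q.R)) (small_nonneg hδ)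
  have b5 := mul_nonneg (zero_le_one.trans (e1 1)) γ0
  have b6 := mul_nonneg (zero_le_one.trans (e1 (2 * q.R + 2))) δ0
  have b1 := ((pt_small (𝓛 := 𝓛) hσ hδ).add (d1.add d2)).mono
    (f' := fun X => (fS 𝓛).p X (Hu g q.R q.V q.μ X + R5.Hc g (c₁ + c₂) X)) (fun X => by
      have e : R5.Hc g (c₁ + c₂) X = R5.Hc g c₁ X + R5.Hc g c₂ X := funext fun n => add_smul _ _ _
      rw [e]
      exact ((fS 𝓛).p_add X _ _).trans (add_le_add le_rfl ((fS 𝓛).p_add X _ _))) le_rfl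
  have b2 := (R5.pt_Hs hg h2 hh hβ hσ (fun k x hx => tdist_put (hY k ▸ hr) hx)
    fun k k' _ _ _ => Subsingleton.elim k k').mono (fun _ => le_rfl)
    ((mul_comm _ _).trans_le ((le_div_iff₀ (Real.exp_pos _)).1 hβ0.le))
  have b8 := min_le_left (1 / 96 : ℝ) (ε / 1156)
  have b9 := min_le_right (1 / 96 : ℝ) (ε / 1156)
  have b3 := (b1.add b2).mono (f' := fun X => (fS 𝓛).p X (g.HinC q (c₁ + c₂) X))
    (fun X => by rw [R5.HinC_eq]; exact (fS 𝓛).p_add X _ _) le_rfl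
  have m1 : ∀ X, g.HinC q (c₁ + c₂) X ∈ (fS 𝓛).sub X := fun X => by
    rw [R5.HinC_eq]
    exact add_mem (add_mem (Hu_mem _ _ _ X) (R5.Hc_mem hc X)) (R5.Hs_mem hg h1 X)
  obtain ⟨-, c1, c2⟩ := pt_cl exp_ev_injective hk hτ hE (R3W.HinC_empty hg hc q) m1
    (by linarith) b3
  refine ⟨c2, anch_mono (c1.anch hτ fun _ => 𝓛.p_nonneg _ _) (fun U => ?_) (by linarith)⟩
  rw [h2, W0C]

/-- The defect size of the initial state. -/
theorem init_df_off (τ h : ℝ) (hτ : 0 ≤ τ) (hh : 0 < h) : ∃ C : ℝ, 1 ≤ C ∧ ∀ g : Geo, g.OkW →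
    ∀ c : Cor g.M, c.Ok → ∀ (q : Par) (η : ℝ), q.Ok → |q.x - tc| ≤ η → |q.Z - 1| ≤ η →
    ∀ β ε : ℝ, 0 < β → (∀ k, (g.src k).on = false) →
      Anch 8 τ (fun U => g.pn 8 h β U (g.W0C q c U)) ε →
      Anch 8 τ (g.df 8 h β (g.initC q c) (g.srcSt 0)) (4 * ε + C * η) := by
  obtain ⟨C, hC1, hC⟩ := pn_crude
  refine ⟨1 + 289 * (2 * (Real.exp (τ * (1 + 4)) * (9 * (3 * (C * h ^ 2 * 8))))),
    le_add_of_nonneg_right (by positivity), fun g hg c hc q η hq hx hZ β ε hβ hon => ?_⟩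
  have h8 : 1 ≤ 8 := by norm_num
  obtain ⟨𝓛, h1, h2⟩ := exists_locSys hg.sign h8 hh hβ
  have hη : 0 ≤ η := (abs_nonneg _).trans hx
  have hv : ∀ x, (g.init q).v x ∈ g.sub (star x) ∧
      𝓛.p (star x) ((g.init q).v x) ≤ 3 * (C * h ^ 2 * 8) * η := by
    intro x
    obtain ⟨a1, a2, -⟩ := hC g hg.sign 8 h β h8 hh hβ x
    refine ⟨add_mem (Subalgebra.smul_mem _ (O1_mem x) _) (Subalgebra.smul_mem _ (O2_mem x) _),
      (𝓛.p_add _ _ _).trans ?_⟩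
    have a3 : |q.Z * (q.x - tc)| ≤ 2 * η := by
      rw [abs_mul]
      exact mul_le_mul (by rw [abs_of_nonneg (by linarith [hq.Z_lo])]; exact hq.Z_hi) hx
        (abs_nonneg _) zero_le_two
    rw [𝓛.p_smul, 𝓛.p_smul]
    have a4 := mul_le_mul a3 (h2 ▸ a1 : 𝓛.p (star x) (g.O1 x) ≤ _) (𝓛.p_nonneg _ _) (by positivity)
    have a5 := mul_le_mul hZ (h2 ▸ a2 : 𝓛.p (star x) (g.O2 x) ≤ _) (𝓛.p_nonneg _ _) hη
    push_cast at a4 a5
    linarith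
  have hcar : Anch 8 τ (fun X => g.pn 8 h β X
      (g.dp 8 X (∑ x ∈ univ.filter (fun x => star x = X), (g.init q).v x)))
      (289 * (2 * (Real.exp (τ * (1 + 4)) * (9 * (3 * (C * h ^ 2 * 8) * η))))) := by
    refine Pt.anch hτ (fun X => h2 ▸ 𝓛.p_nonneg _ _) (((pt_terms (c := 4) hτ univ star
      (fun _ => 3 * (C * h ^ 2 * 8) * η) (fun _ _ => by positivity)
      (fun x _ => by exact_mod_cast stein_star x) fun y => ?_).mul zero_le_two).mono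
      (fun X => ?_) le_rfl)
    · rw [sum_const, nsmul_eq_mul]
      refine mul_le_mul_of_nonneg_right ?_ (by positivity)
      exact_mod_cast (card_le_card fun x hx => G.mem_ball.2
        (G.tdist_star (mem_filter.1 hx).2)).trans (card_ball_le y 1)
    · refine (pn_dp_le hg.sign h8 hh hβ
        (sum_mem fun x hx => (mem_filter.1 hx).2 ▸ (hv x).1) 8 X).trans
        (mul_le_mul_of_nonneg_left ?_ zero_le_two)
      rw [← h2]
      exact (B3.p_sum_le _ _ _ _).trans (sum_le_sum fun x hx => (mem_filter.1 hx).2 ▸ (hv x).2)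
  have key : ∀ (D : Finset g.P → g.E), (∀ X, D X ∈ g.sub X) →
      (∀ X, (g.initC q c).K X = D X - g.noF (D X)) → Anch 8 τ (fun U => g.pn 8 h β U (D U)) ε →
      Anch 8 τ (g.df 8 h β (g.initC q c) (g.srcSt (g.z0 q))) (4 * ε +
        (1 + 289 * (2 * (Real.exp (τ * (1 + 4)) * (9 * (3 * (C * h ^ 2 * 8)))))) * η) := by
    intro D hD hK hA
    refine anch_mono (anch_add (anch_mul hA (by norm_num : (0 : ℝ) ≤ 4)) hcar) (fun X => ?_)
      (by linarith)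
    refine add_le_add ?_ (le_of_eq ?_)
    · have a1 : (g.initC q c).K X - (g.srcSt (g.z0 q)).K X = D X - g.noF (D X) := by
        rw [hK]; exact sub_zero _
      have a2 := pn_dp_le hg.sign h8 hh hβ (sub_mem (hD X) (noF_mem (hD X))) 8 X
      have a3 := pn_noF_le hg.sign h8 hh hβ (hD X)
      have a4 := B4.p_sub 𝓛 X (D X) (g.noF (D X))
      rw [h2] at a4
      rw [a1]
      linarith
    · congr 2
      simp only [St.car, srcSt, initC, Pi.zero_apply, sum_const_zero, zero_add,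
        add_sub_cancel_right]
  have hz : g.z0 q = 0 := funext fun k => by simp [Geo.z0, hon k]
  rw [← hz]
  exact key _ (W0C_mem hg hc q) fun X => by simp [initC, hz]

end Vale.Agent.P144Z.W.Geo
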