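import Vale.Agent.P144D.PS.Step
import Vale.Agent.P144D.PS.Init
import Vale.Agent.P144D.FD.Main

/-!
The corrected flow with a boundary and one local observable.
-/

namespace Vale.Agent.P144Z

open Finset Matrix

/-- The geometries with one local observable. -/
structure Geo.PreO (g : Geo) (L m Λ : ℕ) (c ε : ℝ) : Prop where
  ok : g.OkW
  one : Subsingleton g.K
  off : ∀ k, (g.src k).on = false
  lo : 16 * sc L g.J ≤ g.M
  hi : g.M ≤ Λ * sc L g.J
  sep : g.SepW (8 * sc L g.J)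
  bnd : Bnd g.A L g.J m c ε

/-- The bounds on the flow. -/
structure Geo.FlowO (g : Geo) (L : ℕ) (q : Par) (u : Cor g.M) (β b h : ℝ) : Prop where
  conv : g.ConvC L q u g.J
  cs : ∀ j ≤ g.J, Anch (sc L j) L (fun U => g.ps β U (g.csC L q u j U)) (2 / 2 ^ j)
  last : g.pn (sc L g.J) h β univ (∑ X, (g.flowC L q u g.J).H X) ≤ b / 2 ^ g.J

namespace W.FD

open Vale.Agent.P144Z.FM

theorem flow_off : ∃ ε₀ > 0, ∀ (c : ℝ) (m : ℕ), 1 ≤ c → ∃ L₀ : ℕ, ∀ L ≥ L₀, ∃ η₀ > 0, ∀ R : ℕ,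
    ∃ δ₀ > 0, ∀ q : Par, q.R = R → Crit L q η₀ δ₀ → ∀ Y : Finset (ℤ × ℤ), ∃ β > 0,
    ∀ (Λ : ℕ) (h : ℝ), 0 < h → ∃ b > 0, ∃ J₀ : ℕ, ∀ g : Geo, J₀ ≤ g.J → g.PreO L m Λ c ε₀ →
      (∀ k, (g.src k).Y = Y) → ∀ u : Cor g.M, u.Ok → u.Off g.A → u.Sm R η₀ δ₀ →
        g.FlowO L q u β b h := by
  obtain ⟨C₀, hC₀, H⟩ := Geo.R8.step_off
  obtain ⟨Cb, hCb, hbf⟩ := Geo.ag_bfC
  refine ⟨1 / (4 * C₀), by positivity, fun c m hc => ?_⟩
  obtain ⟨L₀, H⟩ := H c m hc
  refine ⟨max L₀ 16, fun L hL => ?_⟩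
  have hL16 : 16 ≤ L := le_of_max_le_right hL
  have hL1 : 1 ≤ L := by omega
  have hL0 : (0 : ℝ) < L := by positivity
  obtain ⟨C₁, hC₁, H⟩ := H L (le_of_max_le_left hL)
  obtain ⟨Ca, hCa, hI⟩ := Geo.init_off L ((L : ℝ) ^ 2) (by positivity) (by positivity)
  obtain ⟨Cd, hCd, hD⟩ := Geo.init_df_off L ((L : ℝ) ^ 2) (by positivity) (by positivity)
  have h0 : 0 ≤ C₀ * (L : ℝ) ^ 2 := by positivity
  set C := C₁ + C₀ * (L : ℝ) ^ 2 with hC'
  have hC : 1 ≤ C := by linarith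
  set B := Cb * Real.exp L with hB
  have hB0 : 0 ≤ B := by positivity
  set a₀ := 4 * (Ca + 2) + Cd with ha₀
  have ha0 : 0 ≤ a₀ := by positivity
  have ha1 : a₀ ≤ C * a₀ := le_mul_of_one_le_left ha0 hC
  set A := C * (2 * (C * a₀) + 4 * (C * B) + B) with hA
  have hA1 : 2 * (C * a₀) + 4 * (C * B) + B ≤ A := le_mul_of_one_le_left (by positivity) hC
  have hCB : 0 ≤ C * B := by positivity
  have hA0 : 1 ≤ A := by linarith
  set η := A⁻¹ with hη'
  have hη : 0 < η := by positivity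
  have hAη : A * η = 1 := mul_inv_cancel₀ (by linarith)
  refine ⟨η, hη, fun R => ?_⟩
  obtain ⟨Ci, hCi, hI⟩ := hI R
  have e : Ci * (η / (2 * Ci) + η / (2 * Ci)) = η := by field_simp; norm_num
  refine ⟨η / (2 * Ci), by positivity, fun q hR hq Y => ?_⟩
  obtain ⟨β, hβ, hI⟩ := hI Y η hη
  refine ⟨β, hβ, fun Λ H' hH => ?_⟩
  obtain ⟨p, hp⟩ := pow_unbounded_of_one_lt H' (one_lt_two (α := ℝ))
  have hr := rad_min hL1 p
  set h : ℕ → ℝ := fun j => (L : ℝ) ^ 2 * 2 ^ min j p with hh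
  refine ⟨(32 * Λ + 1) ^ 2 * 2, by positivity, max p R, fun g hJ hg hY u hu hf hs => ?_⟩
  have hM : 16 * (q.R + 1) ≤ g.M := by
    have h1 : R < 2 ^ R := Nat.lt_two_pow_self
    have h2 : 2 ^ R ≤ L ^ g.J := (Nat.pow_le_pow_left (by omega) R).trans
      (Nat.pow_le_pow_right (by omega) (le_of_max_le_right hJ))
    have h3 := hg.lo
    unfold sc at h3
    omega
  have wf := Geo.wf_flowC hg.ok hu L q
  have h8 := eight_le_sc hL1
  obtain ⟨i1, i2⟩ := hI q hR hq.ok _ _ _ hq.small (by rw [e]; nlinarith) (by nlinarith) g hg.ok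
    hg.one hY u hu hs
  rw [e] at i2
  have i3 : Anch (sc L 0) L (g.df (sc L 0) (h 0) β (g.flowC L q u 0) (g.srcSt 0)) (a₀ * η) := by
    rw [sc_zero, hr.h0]
    exact anch_le (hD g hg.ok u hu q η hq.ok hq.x hq.Z β _ hβ hg.off i2)
      (le_of_eq (by rw [ha₀]; ring))
  have hb : ∀ j ≤ g.J, Anch (sc L j) L (g.bf (sc L j) (h j) (g.flowC L q u j))
      (B * η / 2 ^ j / 2 ^ j) := fun j hj => by
    refine anch_mono (hbf L (by omega) q η hq.ok hq.bulk g hg.ok u hu hf hM j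
      ((Nat.mul_le_mul_left _ (sc_mono hL1 hj)).trans hg.lo))
      (bf_mono (by have := h8 j; omega) (hr.pos hL1 j) (hr.hi j) (wf j)) ?_
    rw [div_div, div_eq_mul_one_div, ← div_div]
    exact mul_le_mul_of_nonneg_left (th_pow hL16 j) (by positivity)
  have hBη : 0 ≤ B * η := by positivity
  have hCb' : 0 ≤ C * (B * η) := by positivity
  have hE : ∀ (j : ℕ) (D : ℝ), D ≤ (2 * (C * a₀) * η + 4 * (C * (B * η))) / 2 ^ j →
      C * (D + B * η / 2 ^ j / 2 ^ j) ≤ 1 / 2 ^ j := fun j D hD => by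
    rw [← hAη, show A * η / 2 ^ j =
      C * ((2 * (C * a₀) * η + 4 * (C * (B * η))) / 2 ^ j + B * η / 2 ^ j) by rw [hA]; ring]
    exact mul_le_mul_of_nonneg_left (add_le_add hD (div_pow_le (by positivity) j)) (by linarith)
  have step : ∀ j < g.J, ∀ D, D ≤ (2 * (C * a₀) * η + 4 * (C * (B * η))) / 2 ^ j →
      Anch (sc L j) L (g.df (sc L j) (h j) β (g.flowC L q u j) (g.srcSt 0)) D →
      g.ExpId (covP (Dm g.A) (sc L j) (sc L (j + 1))) (g.flowC L q u j) ∧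
      Anch (sc L (j + 1)) L (g.df (sc L (j + 1)) (h (j + 1)) β (g.flowC L q u (j + 1)) (g.srcSt 0))
        ((if j = 0 then C else 1 / 2) * D + C * (B * η / 2 ^ j / 2 ^ j)) ∧
      Anch (sc L (j + 1)) L (fun U => g.ps β U (g.csC L q u (j + 1) U)) (2 / 2 ^ (j + 1)) := by
    intro j hj D hD aD
    obtain ⟨η', κ, n₁, n₂, a1, a2, a3, a4, a5, a6⟩ := hg.bnd j hj
    have h1 : L * sc L j ≤ sc L g.J := by rw [← sc_succ]; exact sc_mono hL1 hj
    have hD0 := G.anch_nonneg (df_nonneg _ _) aD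
    have hb0 : 0 ≤ B * η / 2 ^ j / 2 ^ j := by positivity
    have h2 := hE j D hD
    have h3 : C₁ * (D + B * η / 2 ^ j / 2 ^ j) ≤ 1 / 2 ^ j :=
      (mul_le_mul_of_nonneg_right (by linarith) (by linarith)).trans h2
    obtain ⟨k1, k2, k3⟩ := H g hg.ok.sign hg.off j (sc L j) (h8 j) (by have := hg.lo; omega)
      (Geo.R8.sepW_mono hg.sep (by omega)) η' κ n₁ n₂ a6 a1 a2 a3 a4 (h j) (h (j + 1)) β (hr.lo j)
      (hr.h1 j) (hr.h2 j) hβ _ (wf j) D _ (h3.trans (div_pow_le zero_le_one j)) aD (hb j hj.le)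
    rw [← flowC_succ, ← sc_succ] at k2
    refine ⟨sc_succ L j ▸ k1, anch_le k2 (add_le_add (mul_le_mul_of_nonneg_right ?_ hD0)
      (mul_le_mul_of_nonneg_right (by linarith) hb0)), ?_⟩
    · have h4 := mul_le_mul_of_nonneg_left a5 (by linarith : 0 ≤ C₀)
      split_ifs at h4 ⊢
      · linarith
      · rw [show C₀ * (1 / (4 * C₀)) = 1 / 4 by field_simp] at h4
        linarith
    · rw [sc_succ]
      refine anch_mono (anch_tau k3 (fun _ => RN.pn_nonneg _) (by linarith)) (fun U => ?_)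
        (h3.trans (le_of_eq (by rw [pow_succ]; field_simp)))
      rw [csC_succ]
      exact ps_le hg.ok.sign (by have := h8 j; omega) (half_pos (hr.pos hL1 j)) hβ le_rfl
        ((wf j).Cl_mem (covP_anti (Vale.Agent.P144Z.C.Dm_anti _) _ _) U)
  have ha2 : a₀ * η ≤ 2 * (C * a₀) * η := mul_le_mul_of_nonneg_right (by linarith) hη.le
  have key : ∀ j ≤ g.J, Anch (sc L j) L (g.df (sc L j) (h j) β (g.flowC L q u j) (g.srcSt 0))
      ((2 * (C * a₀) * η + 4 * (C * (B * η)) * (1 - 1 / 2 ^ j)) / 2 ^ j) := by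
    intro j hj
    induction j with
    | zero => exact anch_le i3 (by simpa using ha2)
    | succ j ih =>
      rw [← rec_eq]
      rcases Nat.eq_zero_or_pos j with rfl | hj0
      · refine anch_le (step 0 (by omega) _ (by rw [pow_zero, div_one]; linarith) i3).2.1 ?_
        simp only [if_true, pow_zero, div_one, sub_self, mul_zero, add_zero]
        linarith
      · refine anch_le (step j (by omega) _ (rec_le hCb' j) (ih (by omega))).2.1 (le_of_eq ?_)
        rw [if_neg hj0.ne']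
        ring
  refine ⟨⟨i1, fun j hj => (step j hj _ (rec_le hCb' j) (key j hj.le)).1⟩, fun j hj => ?_, ?_⟩
  · cases j with
    | zero =>
      rw [sc_zero]
      refine anch_mono i2 (fun U => ps_le hg.ok.sign (by norm_num) (by positivity) hβ le_rfl
        (Geo.W0C_mem hg.ok hu q U)) ?_
      have := mul_le_mul_of_nonneg_right (by linarith : Ca + 2 ≤ A) hη.le
      rw [pow_zero]
      linarith
    | succ j => exact (step j hj _ (rec_le hCb' j) (key j (by omega))).2.2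
  · have h1 := pn_sum_H (by have := h8 g.J; omega) (hr.pos hL1 g.J) hβ hg.hi hL0.le (wf g.J)
      (key g.J le_rfl) (hb g.J le_rfl)
    simp only [Pi.zero_apply, zero_smul, sum_const_zero, sub_zero] at h1
    have h2 : H' ≤ h g.J := by
      rw [hh]
      simp only [min_eq_right (le_of_max_le_left hJ)]
      exact hp.le.trans (le_mul_of_one_le_left (by positivity)
        (one_le_pow₀ (by exact_mod_cast hL1)))
    refine (RN.pn_mono (by have := h8 g.J; omega) hH hβ h2 le_rfl subset_rfl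
      (sum_H_mem (wf g.J))).trans (h1.trans ?_)
    rw [mul_div_assoc (((32 : ℝ) * Λ + 1) ^ 2)]
    refine mul_le_mul_of_nonneg_left ?_ (sq_nonneg _)
    have h3 := hE g.J _ (rec_le hCb' g.J)
    have h4 : 0 ≤ (2 * (C * a₀) * η + 4 * (C * (B * η)) * (1 - 1 / 2 ^ g.J)) / 2 ^ g.J :=
      G.anch_nonneg (df_nonneg _ _) (key g.J le_rfl)
    have h5 : 0 ≤ B * η / 2 ^ g.J / 2 ^ g.J := by positivity
    have h6 : (0 : ℝ) ≤ 1 / 2 ^ g.J := by positivity
    have h7 := mul_le_mul_of_nonneg_right hC (add_nonneg h4 h5)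
    rw [show (2 : ℝ) / 2 ^ g.J = 2 * (1 / 2 ^ g.J) by ring]
    linarith

end W.FD

end Vale.Agent.P144Z
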