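import Vale.Agent.P144D.R8.Ks

/-!
# Steps with a boundary and a local observable
-/

namespace Vale.Agent.P144Z.W.Geo.R8

open Finset Matrix Vale.Agent.P144Z.Geo Vale.Agent.P144Z.R8 Filter Topology

theorem step_z_off {g : Geo} (hon : ∀ k, (g.src k).on = false) (j ℓ ℓ' : ℕ) (s : g.St) :
    (g.step j ℓ ℓ' 0 s).z = s.z := by
  classical
  funext k
  simp only [Geo.step]
  rw [sum_eq_zero, add_zero]
  intro U hU
  have := (mem_filter.1 hU).2.2.2.1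
  rw [hon k] at this
  cases this

/-- The hypotheses of the abstract step when the sources are not renormalised. -/
theorem hyp_off : ∃ C : ℝ, 1 ≤ C ∧ ∀ (g : Geo) (L ℓ j m n₁ n₂ : ℕ) (h h' β c η κ : ℝ), IsW g.A →
    (∀ k, (g.src k).on = false) → 8 ≤ ℓ → 16 * (L * ℓ) ≤ g.M → g.SepW (8 * (L * ℓ)) →
    Bd g.A ℓ (L * ℓ) m c η κ n₁ n₂ → 1 ≤ c → 0 < η → η ≤ c → 0 < κ → 8 * κ ≤ 1 → 2 * m + 8 ≤ L →
    60 ≤ L → 576 * C * c ^ 2 ≤ L → 0 < h → h ≤ h' → h' ≤ 2 * h → 0 < β → ∀ s : g.St, g.Wf s →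
    (∀ U, ∀ F ∈ g.sub U, g.pn ℓ (h / 2) β U
      (evG (g.exM (covP (Dm g.A) ℓ (L * ℓ))) F) ≤ g.pn ℓ h β U F) →
    Hyp g L ℓ j h β h' β (4 * C * L) (ksD g L ℓ m c η κ (2 * C * c * √((L : ℝ)⁻¹))) (20 * C ^ 2) s
      (g.srcSt 0) (g.srcSt 0) := by
  classical
  obtain ⟨Cf, hCf, Hf⟩ := pn_flux
  obtain ⟨Cx, hCx, Hx⟩ := ext_le
  refine ⟨Cf + Cx, by linarith, fun g L ℓ j m n₁ n₂ h h' β c η κ hA hon hl hM hSW hB hc
    hη hηc hκ hκ1 hm hL hLC' hh hhh hh2 hβ s hs hE => ?_⟩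
  set C := Cf + Cx with hC
  have hc2 : 1 ≤ c ^ 2 := one_le_pow₀ hc
  have hC1 : 1 ≤ C := by linarith
  have hCc : C ≤ C * c ^ 2 := le_mul_of_one_le_right (by linarith) hc2
  have hCc' : c ^ 2 ≤ C * c ^ 2 := le_mul_of_one_le_left (by linarith) hC1
  have hCc1 : C ≤ C * c := le_mul_of_one_le_right (by linarith) hc
  have hL' : (60 : ℝ) ≤ L := by exact_mod_cast hL
  have hl0 : (0 : ℝ) < ℓ := by positivity
  have hh' : 0 < h' := by linarith
  have h60 : 60 * ℓ ≤ L * ℓ := Nat.mul_le_mul_right ℓ hL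
  have hcast : ((L * ℓ : ℕ) : ℝ) = L * ℓ := Nat.cast_mul _ _
  have a : Ad g ℓ h β := ⟨hA, by omega, hh, hβ⟩
  have a' : Ad g (L * ℓ) h' β := ⟨hA, by omega, hh', hβ⟩
  have hsq : √((ℓ : ℝ) / (L * ℓ : ℕ)) = √((L : ℝ)⁻¹) := by rw [hcast]; congr 1; field_simp
  have hsq0 := Real.sqrt_nonneg ((L : ℝ)⁻¹)
  have hfl := fun (k : ℝ) (hk : 0 < k) (hk' : h' ≤ 4 * k) (U : Finset g.P) (F : g.E)
    (hF : F ∈ g.sub U) => Hf g hA ℓ (L * ℓ) k h' β c hl hc
    (by rw [hcast]; exact mul_le_mul_of_nonneg_right (by nlinarith) hl0.le) hM hk hh' hk' a.b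
    (sepW_mono hSW (by omega)).ff U F hF fun z _ => by
      by_cases h1 : ∀ f, tdist f z ≤ L * ℓ → |flux g.A f| = 1
      · exact Or.inl h1
      · push Not at h1
        exact Or.inr (hB.sch z h1)
  have hsmall : ∀ k : ℝ, 0 < k → h' ≤ 4 * k → ∀ U, stein U ≤ ℓ → ∀ F ∈ g.sub U, g.noF F = 0 →
      g.pn (L * ℓ) h' β U F ≤ ksD g L ℓ m c η κ (2 * C * c * √((L : ℝ)⁻¹)) U * g.pn ℓ k β U F := by
    intro k hk hk' U hU F hF h0
    refine small_le hA a.l hm (by linarith) hη hηc hκ hκ1 hk hh' hk' a.b hF h0 ?_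
    refine ((hfl k hk hk' U F hF).2 hU h0).trans (mul_le_mul_of_nonneg_right ?_ (pn_nonneg _ _))
    rw [hsq]
    exact mul_le_mul_of_nonneg_right (by nlinarith) hsq0
  have hxb : ∀ U F, xb g j ℓ (L * ℓ) U F = 0 := fun U F => xb_eq_zero (fun k hk => by
    have := hk.2.2.1
    rw [hon k] at this
    cases this) F
  exact
    { a := a, a' := a', hL := by omega, hl := hl, hM := hM, hs := hs, hs' := (wf_srcSt _).1
      hf := (wf_srcSt _).2
      tK := fun X => by rw [step_zero]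
      tv := fun _ => rfl
      tz := fun k => by rw [step_z_off hon]
      kc0 := by positivity
      ks0 := ksD_nonneg (by linarith) hη.le (by positivity)
      ke0 := by positivity
      hE := hE
      T1 := fun U F hF => by
        refine (hfl (h / 2) a.half.h (by linarith) U F hF).1.trans
          (mul_le_mul_of_nonneg_right (mul_le_mul (by nlinarith) (Real.exp_le_exp.2 ?_)
            (Real.exp_pos _).le (by positivity)) (pn_nonneg _ _))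
        rw [hcast, div_le_div_iff₀ (by positivity) hl0]
        have : Cf * stein U ≤ L * stein U := mul_le_mul_of_nonneg_right (by linarith) (by positivity)
        nlinarith
      T2 := fun U hU _ F hF h0 _ => by
        rw [hxb, sub_zero]
        exact (a'.mono (G.subset_plus U) hF).trans (hsmall _ a.half.h (by linarith) U hU F hF h0)
      T3 := fun X hX _ => hsmall h hh (by linarith) X hX _
        (dp_mem (sub_mem (hs.car_mem X) ((wf_srcSt 0).1.car_mem X)) X)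
        (noF_dp (by rw [map_sub, hs.noF_car, (wf_srcSt 0).1.noF_car, sub_self]))
      T4 := fun U hU x hx F hF =>
        (Hx g L ℓ h β h' β a a' (by omega) hl hM hh2 U hU x hx F hF).1.trans
          (mul_le_mul_of_nonneg_right (by nlinarith) (pn_nonneg _ _))
      T5 := fun U F hF => by
        rw [hxb, a'.zero]
        exact mul_nonneg (by positivity) (pn_nonneg _ _) }

/-- The step when the sources are not renormalised. -/
theorem step_off : ∃ C₀ : ℝ, 1 ≤ C₀ ∧ ∀ (c : ℝ) (m : ℕ), 1 ≤ c → ∃ L₀ : ℕ, ∀ L ≥ L₀, ∃ C : ℝ, 1 ≤ C ∧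
    ∀ g : Geo, IsW g.A → (∀ k, (g.src k).on = false) → ∀ j ℓ : ℕ, 8 ≤ ℓ → 16 * (L * ℓ) ≤ g.M →
    g.SepW (8 * (L * ℓ)) → ∀ (η κ : ℝ) (n₁ n₂ : ℕ), Bd g.A ℓ (L * ℓ) m c η κ n₁ n₂ → 0 < η → η ≤ c →
    0 < κ → 8 * κ ≤ 1 → ∀ h h' β : ℝ, (L : ℝ) ^ 2 ≤ h → h ≤ h' → h' ≤ 2 * h → 0 < β →
    ∀ s : g.St, g.Wf s → ∀ D b : ℝ, C * (D + b) ≤ 1 →
    Anch ℓ L (g.df ℓ h β s (g.srcSt 0)) D → Anch ℓ L (g.bf ℓ h s) b →
      g.ExpId (covP (Dm g.A) ℓ (L * ℓ)) s ∧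
      Anch (L * ℓ) L (g.df (L * ℓ) h' β (g.step j ℓ (L * ℓ) 0 s) (g.srcSt 0))
        ((1 / 4 + C₀ * bdl L m c η κ n₁ n₂) * D + C * b) ∧
      Anch (L * ℓ) (2 * L) (fun U => g.pn ℓ (h / 2) β U (g.intg ℓ (L * ℓ) s U)) (C * (D + b)) := by
  classical
  obtain ⟨L₁, hP⟩ := cl_P
  obtain ⟨Ch, hCh, hH⟩ := hyp_off
  have he6 : 1 ≤ Real.exp 6 := Real.one_le_exp (by norm_num)
  refine ⟨40000 * Real.exp 6, by linarith, fun c m hc => ?_⟩
  obtain ⟨L₂, hL₂⟩ := eventually_atTop.1 ((ev_exp (4 * (800 * (4 * Ch)))).and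
    ((ev_sqrt (4 * (676 * Real.exp 6 * (2 * Ch * c + 608 * c ^ 2)))).and
      (tendsto_natCast_atTop_atTop.eventually_ge_atTop (576 * Ch * c ^ 2))))
  refine ⟨max (max L₁ L₂) (2 * m + 60), fun L hL => ?_⟩
  obtain ⟨Cc, hCc, hP⟩ := hP L (le_of_max_le_left (le_of_max_le_left hL))
  obtain ⟨hE1, hE2, hE3⟩ := hL₂ L (le_of_max_le_right (le_of_max_le_left hL))
  have hLm : 2 * m + 60 ≤ L := le_of_max_le_right hL
  have hL60 : 60 ≤ L := by omega
  have hL60' : (60 : ℝ) ≤ L := by exact_mod_cast hL60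
  set A := 1200 * Real.exp 6 * (4 * Ch * L + 3 * (20 * Ch ^ 2)) with hA
  have hA0 : 0 ≤ A := by positivity
  have h1 : 0 ≤ A * Cc := by positivity
  have h2 : 0 ≤ A * L ^ 2 := by positivity
  refine ⟨8 * (A * Cc) + A * L ^ 2 + Cc, by linarith,
    fun g hA' hon j ℓ hl hM hSW η κ n₁ n₂ hBd hη hηc hκ hκ1 h h' β hh hhh hh2 hβ s hs D b hC
      aD ab => ?_⟩
  have hh0 : 0 < h := by nlinarith
  have a : Ad g ℓ h β := ⟨hA', by omega, hh0, hβ⟩
  have h60 : 60 * ℓ ≤ L * ℓ := Nat.mul_le_mul_right ℓ hL60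
  have hD0 := G.anch_nonneg (df_nonneg _ _) aD
  have hb0 := G.anch_nonneg (bf_nonneg s) ab
  have hDb := add_nonneg hD0 hb0
  obtain ⟨hE', hP⟩ := hP g ℓ h _ a hl hh
  have h7 := mul_nonneg h1 hDb
  have h8 := mul_nonneg h2 hDb
  have h10 := mul_nonneg (by linarith : 0 ≤ Cc) hDb
  obtain ⟨c1, c2, c3⟩ := hP s _ hs (wf_srcSt 0).1 (wf_srcSt 0).2 D b 0 (by linarith) aD ab
    (fun z => by
      simp only [Geo.df, sub_self, dp_zero, a.zero, add_zero, zero_mul, sum_const_zero, le_refl])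
  have H := hH g L ℓ j m n₁ n₂ h h' β c η κ hA' hon hl hM hSW hBd hc hη hηc hκ hκ1 (by omega)
    hL60 hE3 hh0 hhh hh2 hβ s hs hE'
  refine ⟨c1, anch_mono (H.core (sum_ksD hl (by omega) hM (sepW_mono hSW (by omega)) hBd
    (by linarith) hη.le hηc (by positivity) (df_nonneg _ _) aD) aD ab c2)
    (fun _ => le_rfl) ?_, anch_mono c3 (fun U => ?_)
    (mul_le_mul_of_nonneg_right (by linarith) hDb)⟩
  · have e1 : (L : ℝ)⁻¹ ≤ √((L : ℝ)⁻¹) := by
      rw [Real.le_sqrt (by positivity) (by positivity), sq]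
      exact mul_le_of_le_one_left (by positivity) (inv_le_one_of_one_le₀ (by linarith))
    have e2 := mul_le_mul_of_nonneg_left e1 (by positivity : 0 ≤ Real.exp 6 * c ^ 2)
    have e3 : 4 * Real.exp 6 * (169 * (2 * Ch * c * √((L : ℝ)⁻¹) + 608 * (c ^ 2 / L))) +
        800 * (4 * Ch * L) * L ^ 2 * Real.exp (2 - L) ≤ 1 / 8 := by
      rw [div_eq_mul_inv]
      linarith
    have e4 := mul_le_mul_of_nonneg_right e3 hD0
    have e5 : A * Cc * (D + b + 0) ≤ 1 / 8 := by linarith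
    have e6 := mul_le_mul_of_nonneg_right e5 hDb
    have e7 := mul_nonneg (by linarith : 0 ≤ 8 * (A * Cc) + Cc) hb0
    have e8 : 1 ≤ 8 * (A * Cc) + Cc := by linarith
    nlinarith
  · rw [show g.intg ℓ (L * ℓ) (g.srcSt 0) U = 0 from Cl_zero _ U, sub_zero]

end Vale.Agent.P144Z.W.Geo.R8
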